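import Vale.Agent.P043.R2.Rigid.Facts

/-!
Helper for P043 R2: if translates of the two profiles cover almost every real exactly once and
the rows of the notched band are unbounded above, both bands use one and the same coset of `ℤ`.
-/

namespace Vale.Agent.P043.R2

open MeasureTheory Set

theorem lattice_of_cells {R : Fin 2 → Set ℝ}
    (h : ∀ᵐ y : ℝ, ∃! q : Fin 2 × ℝ, q.2 ∈ R q.1 ∧ y - q.2 ∈ K q.1)
    (hup : ∀ M : ℝ, ∃ r ∈ R 0, M ≤ r) :
    ∃ o : ℝ, ∀ m, R m = range fun n : ℤ => o + n := by
  have hex : ∀ a b : ℝ, a < b →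
      ∃ y ∈ Ioo a b, ∃! q : Fin 2 × ℝ, q.2 ∈ R q.1 ∧ y - q.2 ∈ K q.1 := by
    intro a b hab
    by_contra hc
    push Not at hc
    have h0 : volume (Ioo a b) = 0 := measure_mono_null (fun y hy => hc y hy) (ae_iff.1 h)
    rw [Real.volume_Ioo, ENNReal.ofReal_eq_zero] at h0
    linarith
  -- two cells sharing an interval are the same cell
  have same : ∀ a b : ℝ, a < b → ∀ q q' : Fin 2 × ℝ, q.2 ∈ R q.1 → q'.2 ∈ R q'.1 →
      (∀ y ∈ Ioo a b, y - q.2 ∈ K q.1) → (∀ y ∈ Ioo a b, y - q'.2 ∈ K q'.1) → q = q' := by
    intro a b hab q q' hq hq' k k'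
    obtain ⟨y, hy, hu⟩ := hex a b hab
    exact hu.unique ⟨hq, k y hy⟩ ⟨hq', k' y hy⟩
  have left : ∀ r y : ℝ, r ≤ y → y < r + 1 / 4 → y - r ∈ K 0 := fun r y h1 h2 =>
    mem_K0.2 (Or.inl ⟨by linarith, by linarith⟩)
  have right : ∀ r y : ℝ, r + 5 / 16 ≤ y → y < r + 3 / 4 → y - r ∈ K 0 := fun r y h1 h2 =>
    mem_K0.2 (Or.inr (Or.inl ⟨by linarith, by linarith⟩))
  have short : ∀ s y : ℝ, s + 3 / 4 ≤ y → y < s + 1 → y - s ∈ K 1 := fun s y h1 h2 =>
    mem_K1.2 ⟨by linarith, by linarith⟩
  -- rows of the notched band are at distance at least 3/4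
  have sep : ∀ r ∈ R 0, ∀ r' ∈ R 0, r < r' → r + 3 / 4 ≤ r' := by
    intro r hr r' hr' hlt
    by_contra hc
    push Not at hc
    have e : ((0, r) : Fin 2 × ℝ) = (0, r') := by
      rcases lt_or_ge (r' - r) (1 / 4) with h4 | h4
      · exact same r' (r + 1 / 4) (by linarith) _ _ hr hr'
          (fun y hy => left _ _ (by linarith [hy.1]) hy.2)
          (fun y hy => left _ _ hy.1.le (by linarith [hy.2]))
      · refine same (max r' (r + 5 / 16)) (min (r' + 1 / 4) (r + 3 / 4))
          (max_lt (lt_min (by linarith) (by linarith)) (lt_min (by linarith) (by linarith)))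
          _ _ hr hr' (fun y hy => right _ _ ?_ ?_) (fun y hy => left _ _ ?_ ?_)
        · exact (le_max_right _ _).trans hy.1.le
        · exact hy.2.trans_le (min_le_right _ _)
        · exact (le_max_left _ _).trans hy.1.le
        · exact hy.2.trans_le (min_le_left _ _)
    exact hlt.ne (congrArg Prod.snd e)
  -- what covers a notch is the bump of the row below
  have notch : ∀ r ∈ R 0, ∀ y ∈ Ioo (r + 1 / 4) (r + 5 / 16),
      (∃! q : Fin 2 × ℝ, q.2 ∈ R q.1 ∧ y - q.2 ∈ K q.1) →
        ∃ r' ∈ R 0, r' + 5 / 4 ≤ y ∧ y < r' + 21 / 16 := by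
    intro r hr y hy hu
    obtain ⟨⟨m, s⟩, ⟨hs, hk⟩, -⟩ := hu
    fin_cases m
    · simp only [Fin.zero_eta, Fin.isValue] at hs hk
      rcases mem_K0.1 hk with hk | hk | hk
      · have hne : r ≠ s := by rintro rfl; linarith [hy.1, hk.2]
        rcases lt_or_gt_of_ne hne with h' | h'
        · linarith [sep r hr s hs h', hy.2, hk.1]
        · linarith [sep s hs r hr h', hy.1, hk.2]
      · have hne : r ≠ s := by rintro rfl; linarith [hy.2, hk.1]
        rcases lt_or_gt_of_ne hne with h' | h'
        · linarith [sep r hr s hs h', hy.2, hk.1]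
        · linarith [sep s hs r hr h', hy.1, hk.2]
      · exact ⟨s, hs, by linarith, by linarith⟩
    · simp only [Fin.mk_one, Fin.isValue] at hs hk
      have hk' := mem_K1.1 hk
      exfalso
      have e : ((0, r) : Fin 2 × ℝ) = (1, s) := by
        rcases lt_or_ge (s + 3 / 4) (r + 1 / 4) with h4 | h4
        · refine same (max r (s + 3 / 4)) (r + 1 / 4) (max_lt (by linarith) h4) _ _ hr hs
            (fun t ht => left _ _ ((le_max_left _ _).trans ht.1.le) ht.2)
            (fun t ht => short _ _ ((le_max_right _ _).trans ht.1.le) ?_)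
          linarith [ht.2, hy.1, hk'.2]
        · refine same (max (r + 5 / 16) (s + 3 / 4)) (min (s + 1) (r + 3 / 4))
            (max_lt (lt_min (by linarith) (by linarith))
              (lt_min (by linarith) (by linarith [hy.2, hk'.1])))
            _ _ hr hs (fun t ht => right _ _ ((le_max_left _ _).trans ht.1.le)
              (ht.2.trans_le (min_le_right _ _)))
            (fun t ht => short _ _ ((le_max_right _ _).trans ht.1.le)
              (ht.2.trans_le (min_le_left _ _)))
      simpa using congrArg Prod.fst e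
  have down : ∀ r ∈ R 0, r - 1 ∈ R 0 := by
    intro r hr
    obtain ⟨y₀, hy₀, hu₀⟩ := hex (r + 1 / 4) (r + 5 / 16) (by linarith)
    obtain ⟨r', hr', k1, k2⟩ := notch r hr y₀ hy₀ hu₀
    suffices r' = r - 1 from this ▸ hr'
    by_contra hne
    have other : ∀ a b : ℝ, r + 1 / 4 ≤ a → a < b → b ≤ r + 5 / 16 →
        (∀ y ∈ Ioo a b, y < r' + 5 / 4 ∨ r' + 21 / 16 ≤ y) → False := by
      intro a b ha hab hb hout
      obtain ⟨y, hy, hu⟩ := hex a b hab
      obtain ⟨r'', hr'', j1, j2⟩ := notch r hr y ⟨by linarith [hy.1], by linarith [hy.2]⟩ hu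
      have e : r'' = r' := by
        by_contra hne'
        rcases lt_or_gt_of_ne hne' with h' | h'
        · linarith [sep r'' hr'' r' hr' h', hy₀.2, hy.1]
        · linarith [sep r' hr' r'' hr'' h', hy₀.1, hy.2]
      subst e
      rcases hout y hy with h' | h' <;> linarith
    rcases lt_or_gt_of_ne hne with h' | h'
    · exact other (max (r + 1 / 4) (r' + 21 / 16)) (r + 5 / 16) (le_max_left _ _)
        (max_lt (by linarith) (by linarith)) le_rfl
        fun y hy => Or.inr ((le_max_right _ _).trans hy.1.le)
    · exact other (r + 1 / 4) (min (r + 5 / 16) (r' + 5 / 4)) le_rfl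
        (lt_min (by linarith) (by linarith)) (min_le_left _ _)
        fun y hy => Or.inl (hy.2.trans_le (min_le_right _ _))
  have downs : ∀ r ∈ R 0, ∀ n : ℕ, r - n ∈ R 0 := by
    intro r hr n
    induction n with
    | zero => simpa using hr
    | succ n ih => rw [Nat.cast_succ, ← sub_sub]; exact down _ ih
  obtain ⟨o, ho, -⟩ := hup 0
  -- the notched band has one coset
  have coset : ∀ r ∈ R 0, ∃ n : ℤ, r = o + n := by
    intro r hr
    refine ⟨⌊r - o⌋, ?_⟩
    have f1 := Int.floor_le (r - o)
    have f2 := Int.lt_floor_add_one (r - o)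
    by_contra hne
    set d := r - o - ⌊r - o⌋ with hd
    have hd0 : 0 < d := lt_of_le_of_ne (by linarith) fun e => hne (by linarith)
    obtain ⟨a, b, hab⟩ : ∃ a b : ℕ, (⌊r - o⌋ : ℝ) = (a : ℝ) - b :=
      ⟨⌊r - o⌋.toNat, (-⌊r - o⌋).toNat, by
        have := Int.toNat_sub_toNat_neg ⌊r - o⌋
        exact_mod_cast this.symm⟩
    rcases le_or_gt d (1 / 2) with h2 | h2
    · linarith [sep (o - b) (downs o ho b) (r - a) (downs r hr a) (by linarith)]
    · have := downs r hr (a + 1)
      push_cast at this
      linarith [sep (r - (a + 1)) this (o - b) (downs o ho b) (by linarith)]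
  have full : ∀ n : ℤ, o + n ∈ R 0 := by
    intro n
    obtain ⟨r, hr, hM⟩ := hup (o + n)
    obtain ⟨k, rfl⟩ := coset r hr
    have hk : n ≤ k := by exact_mod_cast (add_le_add_iff_left o).1 hM
    have := downs _ hr (k - n).toNat
    rwa [show ((k - n).toNat : ℝ) = ((k - n : ℤ) : ℝ) from by
      exact_mod_cast Int.toNat_of_nonneg (by omega), Int.cast_sub,
      show o + (k : ℝ) - ((k : ℝ) - n) = o + n by ring] at this
  refine ⟨o, Fin.forall_fin_two.2 ⟨?_, ?_⟩⟩
  · ext r
    exact ⟨fun hr => (coset r hr).imp fun n e => e.symm, by rintro ⟨n, rfl⟩; exact full n⟩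
  · -- the gaps of the notched band hold exactly the short band
    ext s
    constructor
    · intro hs
      refine ⟨⌊s + 3 / 4 - o⌋, ?_⟩
      set n := ⌊s + 3 / 4 - o⌋
      have f1 := Int.floor_le (s + 3 / 4 - o)
      have f2 := Int.lt_floor_add_one (s + 3 / 4 - o)
      simp only
      by_contra hne
      rcases lt_or_gt_of_ne hne with h' | h'
      · -- starts too late: overlaps the next row
        have hs1 : ((1, s) : Fin 2 × ℝ) = (0, o + ((n + 1 : ℤ) : ℝ)) := by
          refine same (o + n + 1) (min (s + 1) (o + n + 5 / 4))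
            (lt_min (by linarith) (by linarith)) _ _ hs (full _)
            (fun y hy => short _ _ (by linarith [hy.1]) (hy.2.trans_le (min_le_left _ _)))
            fun y hy => left _ _ ?_ ?_
          · push_cast; linarith [hy.1]
          · have := hy.2.trans_le (min_le_right _ _)
            push_cast; linarith
        simpa using congrArg Prod.fst hs1
      · obtain ⟨y, hy, hu⟩ := hex (s + 3 / 4) (min (s + 1) (o + n + 3 / 4))
          (lt_min (by linarith) (by linarith))
        have hy1 := hy.1
        have hy2 := hy.2.trans_le (min_le_left _ _)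
        have hy3 := hy.2.trans_le (min_le_right _ _)
        -- below 3/4 of a period the notched band covers
        obtain ⟨r, hr, hk⟩ : ∃ r ∈ R 0, y - r ∈ K 0 := by
          rcases lt_or_ge y (o + n + 1 / 4) with c | c
          · exact ⟨o + n, full n, left _ _ (by linarith) c⟩
          rcases lt_or_ge y (o + n + 5 / 16) with c' | c'
          · refine ⟨o + ((n - 1 : ℤ) : ℝ), full _, mem_K0.2 (Or.inr (Or.inr ?_))⟩
            push_cast; constructor <;> linarith
          · exact ⟨o + n, full n, right _ _ c' hy3⟩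
        have := hu.unique (y₁ := (1, s)) (y₂ := (0, r)) ⟨hs, short _ _ hy1.le hy2⟩ ⟨hr, hk⟩
        simpa using congrArg Prod.fst this
    · rintro ⟨n, rfl⟩
      simp only
      obtain ⟨y, hy, ⟨m, s⟩, ⟨hs, hk⟩, -⟩ := hex (o + n + 3 / 4) (o + n + 1) (by linarith)
      fin_cases m
      · exfalso
        simp only [Fin.zero_eta, Fin.isValue] at hs hk
        obtain ⟨j, rfl⟩ := coset s hs
        rcases mem_K0.1 hk with hk | hk | hk
        · have c1 : n < j := by exact_mod_cast (show (n : ℝ) < j by linarith [hy.1, hk.2])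
          have c2 : j < n + 1 := by exact_mod_cast (show (j : ℝ) < n + 1 by linarith [hy.2, hk.1])
          omega
        · have c1 : n < j := by exact_mod_cast (show (n : ℝ) < j by linarith [hy.1, hk.2])
          have c2 : j < n + 1 := by exact_mod_cast (show (j : ℝ) < n + 1 by linarith [hy.2, hk.1])
          omega
        · have c1 : n < j + 1 := by exact_mod_cast (show (n : ℝ) < j + 1 by linarith [hy.1, hk.2])
          have c2 : j < n := by exact_mod_cast (show (j : ℝ) < n by linarith [hy.2, hk.1])
          omega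
      · simp only [Fin.mk_one, Fin.isValue] at hs hk
        have hk' := mem_K1.1 hk
        suffices s = o + n from this ▸ hs
        by_contra hne
        rcases lt_or_gt_of_ne hne with h' | h'
        · have e : ((1, s) : Fin 2 × ℝ) = (0, o + n) :=
            same (max (o + n + 5 / 16) (s + 3 / 4)) (o + n + 3 / 4)
              (max_lt (by linarith) (by linarith)) _ _ hs (full n)
              (fun t ht => short _ _ ((le_max_right _ _).trans ht.1.le)
                (by linarith [ht.2, hk'.2, hy.1]))
              (fun t ht => right _ _ ((le_max_left _ _).trans ht.1.le) ht.2)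
          simpa using congrArg Prod.fst e
        · have e : ((1, s) : Fin 2 × ℝ) = (0, o + ((n + 1 : ℤ) : ℝ)) := by
            refine same (o + n + 1) (min (s + 1) (o + n + 5 / 4))
              (lt_min (by linarith) (by linarith)) _ _ hs (full _)
              (fun t ht => short _ _ (by linarith [ht.1, hk'.1, hy.2])
                (ht.2.trans_le (min_le_left _ _))) fun t ht => left _ _ ?_ ?_
            · push_cast; linarith [ht.1]
            · have := ht.2.trans_le (min_le_right _ _)
              push_cast; linarith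
          simpa using congrArg Prod.fst e

end Vale.Agent.P043.R2
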