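import Vale.Agent.P043.R2.Defs

/-!
Helper for P043 R2: the two profiles together are a fundamental domain of the integers, the tile
is bounded, measurable and of positive measure, and every solution of the row system tiles.
-/

namespace Vale.Agent.P043.R2

open MeasureTheory Set

/-- Translates of `Ω` by `A` tile up to null sets. -/
def Tiling (Ω A : Set (ℝ × ℝ)) : Prop :=
  (∀ᵐ z, ∃ a ∈ A, z - a ∈ Ω) ∧
    ∀ a ∈ A, ∀ b ∈ A, a ≠ b → volume ({z | z - a ∈ Ω} ∩ {z | z - b ∈ Ω}) = 0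

theorem mem_K0 {y : ℝ} :
    y ∈ K 0 ↔ (0 ≤ y ∧ y < 1 / 4) ∨ (5 / 16 ≤ y ∧ y < 3 / 4) ∨ (5 / 4 ≤ y ∧ y < 21 / 16) := by
  simp only [K, Matrix.cons_val_zero, mem_union, mem_sdiff, mem_Ico]
  constructor
  · rintro (⟨⟨h1, h2⟩, h3⟩ | ⟨h1, h2⟩)
    · rcases lt_or_ge y (1 / 4) with h | h
      · exact Or.inl ⟨h1, h⟩
      · exact Or.inr (Or.inl ⟨le_of_not_gt fun h' => h3 ⟨h, h'⟩, h2⟩)
    · exact Or.inr (Or.inr ⟨h1, h2⟩)
  · rintro (⟨h1, h2⟩ | ⟨h1, h2⟩ | ⟨h1, h2⟩)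
    · exact Or.inl ⟨⟨h1, by linarith⟩, fun h => by linarith [h.1]⟩
    · exact Or.inl ⟨⟨by linarith, h2⟩, fun h => by linarith [h.2]⟩
    · exact Or.inr ⟨h1, h2⟩

theorem mem_K1 {y : ℝ} : y ∈ K 1 ↔ 3 / 4 ≤ y ∧ y < 1 := by
  simp [K]

theorem K_bounds {m : Fin 2} {y : ℝ} (h : y ∈ K m) : 0 ≤ y ∧ y < 21 / 16 := by
  fin_cases m
  · rcases mem_K0.1 h with h | h | h <;> constructor <;> linarith
  · have := mem_K1.1 h
    constructor <;> linarith

/-- Every real lies in exactly one integer translate of exactly one profile. -/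
theorem existsUnique_cell (y : ℝ) : ∃! q : Fin 2 × ℤ, y - q.2 ∈ K q.1 := by
  have a1 := Int.floor_le y
  have a2 := Int.lt_floor_add_one y
  -- the row of a member of a cell
  have key : ∀ q : Fin 2 × ℤ, y - q.2 ∈ K q.1 →
      (q = (1, ⌊y⌋) ∧ 3 / 4 ≤ y - ⌊y⌋) ∨
      (q = (0, ⌊y⌋ - 1) ∧ 1 / 4 ≤ y - ⌊y⌋ ∧ y - ⌊y⌋ < 5 / 16) ∨
      (q = (0, ⌊y⌋) ∧ (y - ⌊y⌋ < 1 / 4 ∨ (5 / 16 ≤ y - ⌊y⌋ ∧ y - ⌊y⌋ < 3 / 4))) := by
    rintro ⟨m, n⟩ h
    fin_cases m
    · simp only [Fin.zero_eta, Fin.isValue] at h ⊢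
      rcases mem_K0.1 h with h | h | h
      · have e : ⌊y⌋ = n := Int.floor_eq_iff.2 ⟨by linarith, by linarith⟩
        exact Or.inr (Or.inr ⟨by rw [e], Or.inl (by rw [e]; linarith)⟩)
      · have e : ⌊y⌋ = n := Int.floor_eq_iff.2 ⟨by linarith, by linarith⟩
        exact Or.inr (Or.inr ⟨by rw [e], Or.inr ⟨by rw [e]; linarith, by rw [e]; linarith⟩⟩)
      · have e : ⌊y⌋ = n + 1 :=
          Int.floor_eq_iff.2 ⟨by push_cast; linarith, by push_cast; linarith⟩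
        refine Or.inr (Or.inl ⟨by rw [e]; simp, ?_⟩)
        rw [e]; push_cast; constructor <;> linarith
    · simp only [Fin.mk_one, Fin.isValue] at h ⊢
      have h' := mem_K1.1 h
      have e : ⌊y⌋ = n := Int.floor_eq_iff.2 ⟨by linarith, by linarith⟩
      exact Or.inl ⟨by rw [e], by rw [e]; linarith⟩
  refine ExistsUnique.intro
    (if 3 / 4 ≤ y - ⌊y⌋ then (1, ⌊y⌋)
      else if 1 / 4 ≤ y - ⌊y⌋ ∧ y - ⌊y⌋ < 5 / 16 then (0, ⌊y⌋ - 1) else (0, ⌊y⌋)) ?_ ?_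
  · split_ifs with h1 h2
    · exact mem_K1.2 ⟨h1, by linarith⟩
    · refine mem_K0.2 (Or.inr (Or.inr ?_))
      push_cast; constructor <;> linarith [h2.1, h2.2]
    · refine mem_K0.2 ?_
      rcases lt_or_ge (y - ⌊y⌋) (1 / 4) with h | h
      · exact Or.inl ⟨by linarith, h⟩
      · exact Or.inr (Or.inl ⟨le_of_not_gt fun h' => h2 ⟨h, h'⟩, by linarith⟩)
  · intro q hq
    rcases key q hq with ⟨e, c⟩ | ⟨e, c⟩ | ⟨e, c⟩
    · rw [if_pos c]; exact e
    · rw [if_neg (by linarith [c.2]), if_pos c]; exact e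
    · rw [if_neg (fun h => by rcases c with c | c <;> linarith [c]), if_neg ?_]
      · exact e
      · rintro ⟨h1, h2⟩
        rcases c with c | c <;> linarith [c]

theorem measurableSet_prism (m : Fin 2) : MeasurableSet (prism m) := by
  have hK : MeasurableSet (K m) := by
    fin_cases m
    · simp only [K, Fin.zero_eta, Matrix.cons_val_zero]
      exact (measurableSet_Ico.diff measurableSet_Ico).union measurableSet_Ico
    · simp only [K, Fin.mk_one, Matrix.cons_val_one, Matrix.cons_val_zero]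
      exact measurableSet_Ico
  exact (measurable_snd hK).inter
    ((measurable_fst.sub ((measurable_snd.pow_const 2).const_mul _)) measurableSet_Ico)

theorem body_facts {F : Fin 2 → Finset (ℝ × ℤ)} (hF : (F 0).Nonempty) :
    MeasurableSet (body F) ∧ Bornology.IsBounded (body F) ∧ 0 < volume (body F) := by
  have e : body F = ⋃ m, ⋃ p ∈ F m, (fun z => z - pt p) ⁻¹' prism m := by
    ext z; simp [body]
  refine ⟨?_, ?_, ?_⟩
  · rw [e]
    exact MeasurableSet.iUnion fun m => Finset.measurableSet_biUnion _ fun p _ =>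
      (measurable_id.sub_const _) (measurableSet_prism m)
  · rw [e]
    refine Bornology.isBounded_iUnion.2 fun m =>
      (Bornology.isBounded_biUnion_finset _).2 fun p _ => ?_
    refine ((Metric.isBounded_Icc (p.1 - 8) (p.1 + 8)).prod
      (Metric.isBounded_Icc ((p.2 : ℝ) - 2) ((p.2 : ℝ) + 2))).subset ?_
    rintro z ⟨h1, h2, h3⟩
    simp only [pt, Prod.fst_sub, Prod.snd_sub] at h1 h2 h3
    have hb := K_bounds h1
    have hsq : (z.2 - (p.2 : ℝ)) ^ 2 ≤ 2 := by nlinarith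
    have h0 := sq_nonneg (z.2 - (p.2 : ℝ))
    have hc : curv m * (z.2 - (p.2 : ℝ)) ^ 2 ≤ 4 ∧ 0 ≤ curv m * (z.2 - (p.2 : ℝ)) ^ 2 := by
      fin_cases m <;> simp [curv] <;> constructor <;> linarith
    simp only [mem_prod, mem_Icc]
    refine ⟨⟨?_, ?_⟩, ?_, ?_⟩ <;> linarith [hb.1, hb.2, hc.1, hc.2]
  · obtain ⟨p, hp⟩ := hF
    have hsub : Ioo (p.1 + 1 / 4) (p.1 + 1) ×ˢ Ioo (p.2 : ℝ) ((p.2 : ℝ) + 1 / 4) ⊆ body F := by
      rintro ⟨x, y⟩ ⟨⟨hx1, hx2⟩, hy1, hy2⟩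
      refine ⟨0, p, hp, mem_K0.2 (Or.inl ⟨?_, ?_⟩), ?_⟩
      · simp only [pt, Prod.snd_sub]; linarith
      · simp only [pt, Prod.snd_sub]; linarith
      · simp only [pt, Prod.fst_sub, Prod.snd_sub, curv, Matrix.cons_val_zero, one_mul, mem_Ico]
        simp only at hx1 hx2 hy1 hy2
        have hsq : (y - (p.2 : ℝ)) ^ 2 ≤ 1 / 4 := by nlinarith
        have h0 := sq_nonneg (y - (p.2 : ℝ))
        constructor <;> linarith
    refine lt_of_lt_of_le ?_ (measure_mono hsub)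
    rw [Measure.volume_eq_prod, Measure.prod_prod, Real.volume_Ioo, Real.volume_Ioo]
    simp
    norm_num

/-- A solution of the row system tiles, exactly. -/
theorem tiling_of_sys {F : Fin 2 → Finset (ℝ × ℤ)} {B : Set (ℝ × ℤ)} (hB : Sys F B) :
    Tiling (body F) (pt '' B) := by
  choose ψ hcos huni using hB
  -- a point lies in the translates by `b` of the prism of `p` iff its cell and coset say so
  have key : ∀ z : ℝ × ℝ, ∀ m : Fin 2, ∀ (b p : ℝ × ℤ), z - pt b - pt p ∈ prism m ↔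
      z.2 - ((b.2 + p.2 : ℤ) : ℝ) ∈ K m ∧
      z.1 - curv m * (z.2 - ((b.2 + p.2 : ℤ) : ℝ)) ^ 2 - (b.1 + p.1) ∈ Ico (0 : ℝ) 1 := by
    intro z m b p
    simp only [prism, pt, mem_ofPred_eq, Prod.fst_sub, Prod.snd_sub, Int.cast_add]
    simp only [sub_sub, mem_Ico]
    constructor <;> rintro ⟨h1, h2, h3⟩ <;> exact ⟨h1, by linarith, by linarith⟩
  refine ⟨Filter.Eventually.of_forall fun z => ?_, fun a ha a' ha' hne => ?_⟩
  · obtain ⟨⟨m, r⟩, hm, -⟩ := existsUnique_cell z.2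
    simp only at hm
    set x := z.1 - curv m * (z.2 - (r : ℝ)) ^ 2 - ψ m r with hx
    obtain ⟨⟨b, p⟩, ⟨hb, hp, hr, hz⟩, -⟩ := huni m r ⌊x⌋
    simp only at hr hz
    refine ⟨pt b, mem_image_of_mem _ hb, m, p, hp, (key z m b p).2 ?_⟩
    rw [hr]
    refine ⟨hm, ?_, ?_⟩ <;> linarith [Int.floor_le x, Int.lt_floor_add_one x]
  · obtain ⟨b, hb, rfl⟩ := ha
    obtain ⟨b', hb', rfl⟩ := ha'
    refine measure_mono_null (fun z hz => ?_) measure_empty
    obtain ⟨⟨m, p, hp, h1⟩, ⟨m', p', hp', h2⟩⟩ := hz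
    rw [key] at h1 h2
    have e := (existsUnique_cell z.2).unique (y₁ := (m, b.2 + p.2)) (y₂ := (m', b'.2 + p'.2))
      h1.1 h2.1
    simp only [Prod.mk.injEq] at e
    obtain ⟨rfl, er⟩ := e
    rw [← er] at h2
    obtain ⟨k, hk⟩ := hcos m _ b hb p hp rfl
    obtain ⟨k', hk'⟩ := hcos m _ b' hb' p' hp' er.symm
    have d : k = k' := by
      have hd : |((k - k' : ℤ) : ℝ)| < 1 := by
        rw [abs_lt]; push_cast; constructor <;> linarith [h1.2.1, h1.2.2, h2.2.1, h2.2.2]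
      have : |k - k'| < 1 := by exact_mod_cast hd
      have := abs_lt.1 this
      omega
    have := (huni m (b.2 + p.2) k).unique (y₁ := (b, p)) (y₂ := (b', p'))
      ⟨hb, hp, rfl, hk⟩ ⟨hb', hp', er.symm, by rw [d]; exact hk'⟩
    exact (hne (congrArg pt (congrArg Prod.fst this))).elim

end Vale.Agent.P043.R2
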